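import Mathlib.Analysis.SpecialFunctions.Sqrt
import Mathlib.Analysis.SpecialFunctions.ExpDeriv
import Mathlib.Analysis.Calculus.MeanValue
import Mathlib.Topology.Order.Compact
import Mathlib.Analysis.Calculus.LocalExtr.Basic
import Mathlib.Analysis.Calculus.Deriv.MeanValue

/-!
P227, block SC: first zero of a function of (time, z, v), and the first and second order
conditions there.
-/

namespace Vale.Agent.P227.SC.Flow

open Set Filter Topology

theorem first_zero {S : ℝ} {H : ℝ → ℝ → ℝ → ℝ}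
    (hc : ContinuousOn (fun p : ℝ × ℝ × ℝ => H p.1 p.2.1 p.2.2) (Icc 0 S ×ˢ univ))
    (h0 : ∀ z v, 0 < H 0 z v) {r : ℝ}
    (hinf : ∀ s ∈ Icc 0 S, ∀ z v, r < |z| ∨ r < |v| → 0 < H s z v)
    (hbad : ∃ s ∈ Icc 0 S, ∃ z v, H s z v ≤ 0) :
    ∃ s z v, 0 < s ∧ s ≤ S ∧ H s z v = 0 ∧ (∀ z' v', 0 ≤ H s z' v') ∧
      (∀ s' ∈ Icc 0 s, 0 ≤ H s' z v) := by
  set F : ℝ × ℝ × ℝ → ℝ := fun p => H p.1 p.2.1 p.2.2 with hF
  set Kc : Set (ℝ × ℝ × ℝ) := Icc 0 S ×ˢ (Icc (-r) r ×ˢ Icc (-r) r) with hKc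
  have hKcomp : IsCompact Kc := isCompact_Icc.prod (isCompact_Icc.prod isCompact_Icc)
  have hcK : ContinuousOn F Kc := hc.mono (by
    intro p hp
    exact ⟨hp.1, mem_univ _⟩)
  set B : Set (ℝ × ℝ × ℝ) := Kc ∩ F ⁻¹' (Iic 0) with hB
  have hBcl : IsClosed B := hcK.preimage_isClosed_of_isClosed hKcomp.isClosed isClosed_Iic
  have hBc : IsCompact B := hKcomp.of_isClosed_subset hBcl inter_subset_left
  have key : ∀ s ∈ Icc 0 S, ∀ z v, H s z v ≤ 0 → (s, z, v) ∈ B := by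
    intro s hs z v hle
    by_cases hz : r < |z|
    · exact absurd (hinf s hs z v (Or.inl hz)) (not_lt.2 hle)
    by_cases hv : r < |v|
    · exact absurd (hinf s hs z v (Or.inr hv)) (not_lt.2 hle)
    refine ⟨⟨hs, ?_, ?_⟩, hle⟩
    · exact abs_le.1 (not_lt.1 hz)
    · exact abs_le.1 (not_lt.1 hv)
  have hBne : B.Nonempty := by
    obtain ⟨s, hs, z, v, h⟩ := hbad
    exact ⟨_, key s hs z v h⟩
  obtain ⟨⟨s, z, v⟩, hmem, hmin⟩ := hBc.exists_isMinOn hBne (f := fun p => p.1)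
    continuous_fst.continuousOn
  have hsS : s ∈ Icc 0 S := hmem.1.1
  have hle : H s z v ≤ 0 := hmem.2
  have hs0 : 0 < s := by
    rcases eq_or_lt_of_le hsS.1 with h | h
    · rw [← h] at hle
      exact absurd hle (not_le.2 (h0 z v))
    · exact h
  have hbefore : ∀ s' ∈ Icc 0 S, s' < s → ∀ z' v', 0 < H s' z' v' := by
    intro s' hs' hlt z' v'
    by_contra hcon
    have h1 := key s' hs' z' v' (not_lt.1 hcon)
    have h2 : s ≤ s' := hmin h1
    linarith
  have hat : ∀ z' v', 0 ≤ H s z' v' := by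
    intro z' v'
    have hcont : ContinuousOn (fun s' => H s' z' v') (Icc 0 S) := by
      have : ContinuousOn (fun s' : ℝ => F (s', z', v')) (Icc 0 S) :=
        hc.comp (by fun_prop) (fun x hx => ⟨hx, mem_univ _⟩)
      exact this
    have hw : ContinuousWithinAt (fun s' => H s' z' v') (Ico 0 s) s :=
      (hcont s hsS).mono (fun x hx => ⟨hx.1, hx.2.le.trans hsS.2⟩)
    have hcl : s ∈ closure (Ico 0 s) := by
      rw [closure_Ico hs0.ne]
      exact ⟨hs0.le, le_rfl⟩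
    have : (𝓝[Ico 0 s] s).NeBot := mem_closure_iff_nhdsWithin_neBot.1 hcl
    refine ge_of_tendsto hw ?_
    filter_upwards [self_mem_nhdsWithin] with x hx
    exact (hbefore x ⟨hx.1, hx.2.le.trans hsS.2⟩ hx.2 z' v').le
  refine ⟨s, z, v, hs0, hsS.2, le_antisymm hle (hat z v), hat, ?_⟩
  intro s' hs'
  rcases eq_or_lt_of_le hs'.2 with h | h
  · rw [h]; exact hat z v
  · exact (hbefore s' ⟨hs'.1, hs'.2.trans hsS.2⟩ h z v).le

theorem deriv_nonpos_of_left {f : ℝ → ℝ} {s D : ℝ} (hs : 0 < s) (h0 : f s = 0)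
    (hpos : ∀ s' ∈ Icc 0 s, 0 ≤ f s') (hd : HasDerivAt f D s) : D ≤ 0 := by
  have h1 : HasDerivWithinAt f D (Iio s) s := hd.hasDerivWithinAt
  have h2 := (hasDerivWithinAt_iff_tendsto_slope' (by simp)).1 h1
  refine le_of_tendsto h2 ?_
  have hmem : Ioo 0 s ∈ 𝓝[<] s := Ioo_mem_nhdsLT hs
  filter_upwards [hmem] with x hx
  rw [slope_def_field, h0]
  have hx1 := hpos x ⟨hx.1.le, hx.2.le⟩
  apply div_nonpos_of_nonneg_of_nonpos <;> linarith [hx.2]

theorem deriv_zero_of_min {f : ℝ → ℝ} {z D : ℝ} (h0 : f z = 0)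
    (hpos : ∀ z', 0 ≤ f z') (hd : HasDerivAt f D z) : D = 0 := by
  have : IsLocalMin f z := Filter.Eventually.of_forall (fun x => by rw [h0]; exact hpos x)
  exact IsLocalMin.hasDerivAt_eq_zero this hd

theorem deriv2_nonneg_of_min {f f' : ℝ → ℝ} {z D : ℝ} (h0 : f z = 0)
    (hpos : ∀ z', 0 ≤ f z') (hd : ∀ z', HasDerivAt f (f' z') z') (hd2 : HasDerivAt f' D z) :
    0 ≤ D := by
  by_contra hcon
  push Not at hcon
  have hz0 : f' z = 0 := deriv_zero_of_min h0 hpos (hd z)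
  have h1 : HasDerivWithinAt f' D (Ioi z) z := hd2.hasDerivWithinAt
  have h2 := (hasDerivWithinAt_iff_tendsto_slope' (by simp)).1 h1
  have h3 : ∀ᶠ x in 𝓝[>] z, slope f' z x < 0 := h2.eventually (Iio_mem_nhds hcon)
  obtain ⟨u, hu, hsub⟩ := mem_nhdsGT_iff_exists_Ioo_subset.1 h3
  have hzu : z < u := hu
  set x := (z + u) / 2 with hx
  have hzx : z < x := by rw [hx]; linarith
  have hxu : x < u := by rw [hx]; linarith
  obtain ⟨c, hc, hceq⟩ := exists_hasDerivAt_eq_slope f f' hzx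
    (fun y _ => (hd y).continuousAt.continuousWithinAt) (fun y _ => hd y)
  have hc2 : slope f' z c < 0 := hsub ⟨hc.1, hc.2.trans hxu⟩
  rw [slope_def_field, hz0] at hc2
  have hcz : 0 < c - z := by linarith [hc.1]
  have h4 : f' c < 0 := by
    have := (div_neg_iff.1 hc2)
    rcases this with h | h
    · linarith [h.2]
    · linarith [h.1]
  have h5 : (f x - f z) / (x - z) < 0 := by rw [← hceq]; exact h4
  rw [h0] at h5
  have h6 : 0 ≤ (f x - 0) / (x - z) := div_nonneg (by linarith [hpos x]) (by linarith)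
  linarith

end Vale.Agent.P227.SC.Flow
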