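import Vale.Agent.P227.SC.FlowA
import Mathlib.Analysis.SpecialFunctions.Pow.Deriv
import Mathlib.Tactic

/-!
P227, block SC: the maximum principle for the heat flow in one variable; `a` and `b` are the
second and third directional derivatives of minus the logarithm of the solution.
-/

namespace Vale.Agent.P227.SC.Flow

open Set Filter Topology

/-- Data: ratios of three solutions to a positive solution of the heat equation. -/
structure Dat (S C : ℝ) (ρ1 ρ2 ρ3 ρ1z ρ2z ρ3z ρ1zz ρ2zz ρ3zz : ℝ → ℝ → ℝ → ℝ)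
    (R : ℝ → ℝ → ℝ) : Prop where
  s1 : ∀ s z v, 0 < s → s ≤ S → HasDerivAt (fun x => ρ1 x z v)
    (ρ1zz s z v / 2 + R s z * ρ1z s z v) s
  s2 : ∀ s z v, 0 < s → s ≤ S → HasDerivAt (fun x => ρ2 x z v)
    (ρ2zz s z v / 2 + R s z * ρ2z s z v) s
  s3 : ∀ s z v, 0 < s → s ≤ S → HasDerivAt (fun x => ρ3 x z v)
    (ρ3zz s z v / 2 + R s z * ρ3z s z v) s
  z1 : ∀ s z v, 0 < s → s ≤ S → HasDerivAt (fun x => ρ1 s x v) (ρ1z s z v) z
  z2 : ∀ s z v, 0 < s → s ≤ S → HasDerivAt (fun x => ρ2 s x v) (ρ2z s z v) z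
  z3 : ∀ s z v, 0 < s → s ≤ S → HasDerivAt (fun x => ρ3 s x v) (ρ3z s z v) z
  y1 : ∀ s z v, 0 < s → s ≤ S → HasDerivAt (fun x => ρ1z s x v) (ρ1zz s z v) z
  y2 : ∀ s z v, 0 < s → s ≤ S → HasDerivAt (fun x => ρ2z s x v) (ρ2zz s z v) z
  y3 : ∀ s z v, 0 < s → s ≤ S → HasDerivAt (fun x => ρ3z s x v) (ρ3zz s z v) z
  v1 : ∀ s z v, 0 < s → s ≤ S → HasDerivAt (fun x => ρ1 s z x) (R s z) v
  v2 : ∀ s z v, 0 < s → s ≤ S → HasDerivAt (fun x => ρ2 s z x)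
    (2 * (ρ1z s z v + ρ1 s z v * R s z)) v
  v3 : ∀ s z v, 0 < s → s ≤ S → HasDerivAt (fun x => ρ3 s z x)
    (3 * (ρ2z s z v + ρ2 s z v * R s z)) v
  ca : ContinuousOn (fun p : ℝ × ℝ × ℝ => ρ1 p.1 p.2.1 p.2.2 ^ 2 - ρ2 p.1 p.2.1 p.2.2)
    (Icc 0 S ×ˢ univ)
  cb : ContinuousOn (fun p : ℝ × ℝ × ℝ => - ρ3 p.1 p.2.1 p.2.2
      + 3 * ρ1 p.1 p.2.1 p.2.2 * ρ2 p.1 p.2.1 p.2.2 - 2 * ρ1 p.1 p.2.1 p.2.2 ^ 3)
    (Icc 0 S ×ˢ univ)
  ba : ∀ s ∈ Icc 0 S, ∀ z v, |ρ1 s z v ^ 2 - ρ2 s z v| ≤ C * (1 + v ^ 2)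
  bb : ∀ s ∈ Icc 0 S, ∀ z v,
    |- ρ3 s z v + 3 * ρ1 s z v * ρ2 s z v - 2 * ρ1 s z v ^ 3| ≤ C * (1 + |v|) ^ 3
  bm : ∀ s z v, 0 < s → s ≤ S → |ρ1z s z v| ≤ C * (1 + |v|)
  bq : ∀ s z v, 0 < s → s ≤ S → |2 * ρ1 s z v * ρ1z s z v - ρ2z s z v| ≤ C * (1 + v ^ 2)
  bR : ∀ s z, 0 < s → s ≤ S → |R s z| ≤ C * (1 + |z|)

/-- The penalty. -/
noncomputable def pen (K s z v : ℝ) : ℝ := Real.exp (K * s) * (1 + z ^ 2 + v ^ 2) ^ 2

theorem pen_pos (K s z v : ℝ) : 0 < pen K s z v := by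
  unfold pen; positivity

theorem pen_s (K s z v : ℝ) : HasDerivAt (fun x => pen K x z v) (K * pen K s z v) s := by
  unfold pen
  have h := (((hasDerivAt_id s).const_mul K).exp).mul_const ((1 + z ^ 2 + v ^ 2) ^ 2)
  refine h.congr_deriv ?_
  simp only [id]; ring

theorem pen_z (K s z v : ℝ) : HasDerivAt (fun x => pen K s x v)
    (Real.exp (K * s) * (4 * z * (1 + z ^ 2 + v ^ 2))) z := by
  unfold pen
  have h := ((((hasDerivAt_id z).pow 2).const_add 1).add_const (v ^ 2)).pow 2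
  have h2 := h.const_mul (Real.exp (K * s))
  refine h2.congr_deriv ?_
  simp [id]; ring

theorem pen_zz (K s z v : ℝ) : HasDerivAt
    (fun x => Real.exp (K * s) * (4 * x * (1 + x ^ 2 + v ^ 2)))
    (Real.exp (K * s) * (4 * (1 + z ^ 2 + v ^ 2) + 8 * z ^ 2)) z := by
  have h := (((hasDerivAt_id z).pow 2).const_add 1).add_const (v ^ 2)
  have h1 := ((hasDerivAt_id z).const_mul 4).mul h
  have h2 := h1.const_mul (Real.exp (K * s))
  refine h2.congr_deriv ?_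
  simp [id, Pi.pow_apply]; ring

theorem pen_v (K s z v : ℝ) : HasDerivAt (fun x => pen K s z x)
    (Real.exp (K * s) * (4 * v * (1 + z ^ 2 + v ^ 2))) v := by
  unfold pen
  have h := (((hasDerivAt_id v).pow 2).const_add (1 + z ^ 2)).pow 2
  have h2 := h.const_mul (Real.exp (K * s))
  refine h2.congr_deriv ?_
  simp [id]; ring

theorem pen_cont (K : ℝ) : Continuous (fun p : ℝ × ℝ × ℝ => pen K p.1 p.2.1 p.2.2) := by
  unfold pen; fun_prop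

theorem pen_ge {K s : ℝ} (hK : 0 ≤ K) (hs : 0 ≤ s) (z v : ℝ) :
    (1 + z ^ 2 + v ^ 2) ^ 2 ≤ pen K s z v := by
  unfold pen
  have : 1 ≤ Real.exp (K * s) := Real.one_le_exp (mul_nonneg hK hs)
  nlinarith [sq_nonneg (1 + z ^ 2 + v ^ 2)]

/-- bounds for the derivatives of the penalty -/
theorem pen_bd1 (K s z v : ℝ) :
    (1 + |z|) * |Real.exp (K * s) * (4 * z * (1 + z ^ 2 + v ^ 2))| ≤ 8 * pen K s z v := by
  have hN : 0 < 1 + z ^ 2 + v ^ 2 := by positivity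
  have he := Real.exp_pos (K * s)
  rw [abs_mul, abs_of_pos he, abs_mul, abs_of_pos hN, abs_mul, abs_of_pos (by norm_num : (0:ℝ) < 4)]
  unfold pen
  have h1 : (1 + |z|) * |z| ≤ 2 * (1 + z ^ 2 + v ^ 2) := by
    nlinarith [abs_nonneg z, sq_abs z, sq_nonneg (|z| - 1), sq_nonneg v]
  calc (1 + |z|) * (Real.exp (K * s) * (4 * |z| * (1 + z ^ 2 + v ^ 2)))
      = ((1 + |z|) * |z|) * (4 * Real.exp (K * s) * (1 + z ^ 2 + v ^ 2)) := by ring
    _ ≤ (2 * (1 + z ^ 2 + v ^ 2)) * (4 * Real.exp (K * s) * (1 + z ^ 2 + v ^ 2)) :=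
        mul_le_mul_of_nonneg_right h1 (by positivity)
    _ = _ := by ring

theorem pen_bd2 (K s z v : ℝ) :
    (1 + |v|) * |Real.exp (K * s) * (4 * v * (1 + z ^ 2 + v ^ 2))| ≤ 8 * pen K s z v := by
  have h := pen_bd1 K s v z
  have e : (1 + v ^ 2 + z ^ 2) = (1 + z ^ 2 + v ^ 2) := by ring
  rw [e] at h
  have e2 : pen K s v z = pen K s z v := by unfold pen; rw [e]
  rwa [e2] at h

theorem pen_bd3 (K s z v : ℝ) :
    Real.exp (K * s) * (4 * (1 + z ^ 2 + v ^ 2) + 8 * z ^ 2) ≤ 12 * pen K s z v := by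
  unfold pen
  have he := Real.exp_pos (K * s)
  have h1 : (4 * (1 + z ^ 2 + v ^ 2) + 8 * z ^ 2) ≤ 12 * (1 + z ^ 2 + v ^ 2) ^ 2 := by
    nlinarith [sq_nonneg z, sq_nonneg v, sq_nonneg (z ^ 2 + v ^ 2)]
  calc _ ≤ Real.exp (K * s) * (12 * (1 + z ^ 2 + v ^ 2) ^ 2) := mul_le_mul_of_nonneg_left h1 he.le
    _ = _ := by ring

/-- The contradiction at the touching point, first use. -/
theorem touch_a {a1 a1z a1zz a2z a2zz R K X P Pz Pzz C : ℝ}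
    (ds : 2 * a1 * (a1zz / 2 + R * a1z) - (a2zz / 2 + R * a2z) + K * X + K * P ≤ 0)
    (dz : 2 * a1 * a1z - a2z + Pz = 0)
    (dzz : 0 ≤ 2 * a1z * a1z + 2 * a1 * a1zz - a2zz + Pzz)
    (hR : R * Pz ≤ 8 * C * P) (hsq : a1z ^ 2 ≤ 2 * C * X + 4 * C * P) (hPzz : Pzz ≤ 12 * P)
    (hfin : 0 < K * X - 2 * C * X + (K - 6 - 8 * C - 4 * C) * P) : False := by
  have h1 : R * (2 * a1 * a1z - a2z) = - (R * Pz) := by
    have : 2 * a1 * a1z - a2z = - Pz := by linarith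
    rw [this]; ring
  nlinarith

theorem touch_R {C R z ε Pz P : ℝ} (hε : 0 < ε) (hC : 0 ≤ C) (hR : |R| ≤ C * (1 + |z|))
    (b1 : (1 + |z|) * |Pz| ≤ 8 * P) : |R * (ε * Pz)| ≤ 8 * C * (ε * P) := by
  rw [abs_mul, abs_mul, abs_of_pos hε]
  have h1 : |R| * (ε * |Pz|) ≤ (C * (1 + |z|)) * (ε * |Pz|) :=
    mul_le_mul_of_nonneg_right hR (by positivity)
  have h2 : (C * (1 + |z|)) * (ε * |Pz|) = C * ε * ((1 + |z|) * |Pz|) := by ring
  have h3 : C * ε * ((1 + |z|) * |Pz|) ≤ C * ε * (8 * P) :=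
    mul_le_mul_of_nonneg_left b1 (by positivity)
  linarith

theorem touch_sq {C δ e ε v a1z P Pv : ℝ} (hC : 0 ≤ C) (hδ : 0 < δ) (he0 : 0 < e) (hε : 0 < ε)
    (hm : |a1z| ≤ C * (1 + |v|)) (hρ : a1z = - δ * e * v + ε * Pv / 2)
    (b2 : (1 + |v|) * |Pv| ≤ 8 * P) :
    a1z ^ 2 ≤ 2 * C * (δ * e * (1 + v ^ 2)) + 4 * C * (ε * P) := by
  have h1 : a1z ^ 2 = |a1z| * |a1z| := by rw [← sq, sq_abs]
  have h2 : |a1z| ≤ δ * e * |v| + ε * |Pv| / 2 := by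
    rw [hρ]
    calc |-δ * e * v + ε * Pv / 2| ≤ |-δ * e * v| + |ε * Pv / 2| := abs_add_le _ _
      _ = δ * e * |v| + ε * |Pv| / 2 := by
        rw [abs_mul, abs_mul, abs_neg, abs_of_pos hδ, abs_of_pos he0, abs_div, abs_mul,
          abs_of_pos hε, abs_of_pos (by norm_num : (0:ℝ) < 2)]
  have h3 : |a1z| * |a1z| ≤ (C * (1 + |v|)) * (δ * e * |v| + ε * |Pv| / 2) :=
    mul_le_mul hm h2 (abs_nonneg _) (by positivity)
  have h4 : (1 + |v|) * |v| ≤ 2 * (1 + v ^ 2) := by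
    nlinarith [abs_nonneg v, sq_abs v, sq_nonneg (|v| - 1)]
  have h5 : C * (δ * e) * ((1 + |v|) * |v|) ≤ C * (δ * e) * (2 * (1 + v ^ 2)) :=
    mul_le_mul_of_nonneg_left h4 (by positivity)
  have h6 : C * ε / 2 * ((1 + |v|) * |Pv|) ≤ C * ε / 2 * (8 * P) :=
    mul_le_mul_of_nonneg_left b2 (by positivity)
  have h7 : (C * (1 + |v|)) * (δ * e * |v| + ε * |Pv| / 2)
      = C * (δ * e) * ((1 + |v|) * |v|) + C * ε / 2 * ((1 + |v|) * |Pv|) := by ring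
  rw [h1]
  linarith

/-- coercivity, first use -/
theorem coer_a {C δ ε K s z v a : ℝ} (hC : 0 ≤ C) (hδ : 0 < δ) (hε : 0 < ε) (hK0 : 0 ≤ K)
    (hs : 0 ≤ s) (ha : |a| ≤ C * (1 + v ^ 2))
    (hr : Real.sqrt ((C + δ) / ε) < |z| ∨ Real.sqrt ((C + δ) / ε) < |v|) :
    0 < a - δ * Real.exp (-(K * s)) * (1 + v ^ 2) + ε * pen K s z v := by
  have h1 := (abs_le.1 ha).1
  have h2 := pen_ge hK0 hs z v
  have hN : (C + δ) / ε < 1 + z ^ 2 + v ^ 2 := by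
    rcases hr with hr | hr
    · have := (Real.sqrt_lt' (lt_of_le_of_lt (Real.sqrt_nonneg _) hr)).1 hr
      rw [sq_abs] at this
      nlinarith [sq_nonneg v]
    · have := (Real.sqrt_lt' (lt_of_le_of_lt (Real.sqrt_nonneg _) hr)).1 hr
      rw [sq_abs] at this
      nlinarith [sq_nonneg z]
  have hN2 : C + δ < ε * (1 + z ^ 2 + v ^ 2) := by
    rw [div_lt_iff₀ hε] at hN; linarith
  have he : Real.exp (-(K * s)) ≤ 1 := by
    rw [Real.exp_le_one_iff]; have := mul_nonneg hK0 hs; linarith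
  have he0 := Real.exp_pos (-(K * s))
  have hv0 : (0:ℝ) < 1 + v ^ 2 := by positivity
  have h3 : δ * Real.exp (-(K * s)) * (1 + v ^ 2) ≤ δ * (1 + v ^ 2) := by
    have : δ * Real.exp (-(K * s)) ≤ δ := by nlinarith
    exact mul_le_mul_of_nonneg_right this hv0.le
  have h4 : ε * (1 + z ^ 2 + v ^ 2) ^ 2 ≤ ε * pen K s z v :=
    mul_le_mul_of_nonneg_left h2 hε.le
  have h5 : (C + δ) * (1 + v ^ 2) < ε * (1 + z ^ 2 + v ^ 2) ^ 2 := by
    have hle : (1 + v ^ 2) ≤ (1 + z ^ 2 + v ^ 2) := by nlinarith [sq_nonneg z]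
    have h6 : (C + δ) * (1 + v ^ 2) ≤ (C + δ) * (1 + z ^ 2 + v ^ 2) :=
      mul_le_mul_of_nonneg_left hle (by positivity)
    have h7 : (C + δ) * (1 + z ^ 2 + v ^ 2) < ε * (1 + z ^ 2 + v ^ 2) * (1 + z ^ 2 + v ^ 2) :=
      mul_lt_mul_of_pos_right hN2 (by positivity)
    calc _ ≤ _ := h6
      _ < _ := h7
      _ = _ := by ring
  linarith

section
variable {S C : ℝ} {ρ1 ρ2 ρ3 ρ1z ρ2z ρ3z ρ1zz ρ2zz ρ3zz : ℝ → ℝ → ℝ → ℝ} {R : ℝ → ℝ → ℝ}

theorem a_lower_aux (D : Dat S C ρ1 ρ2 ρ3 ρ1z ρ2z ρ3z ρ1zz ρ2zz ρ3zz R) {δ : ℝ} (hδ : 0 < δ)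
    (hC : 0 ≤ C) {K : ℝ} (hK : K = 12 * C + 7) {ε : ℝ} (hε : 0 < ε) {s z v : ℝ}
    (hs0 : 0 < s) (hsS : s ≤ S)
    (hzero : ρ1 s z v ^ 2 - ρ2 s z v - δ * Real.exp (-(K * s)) * (1 + v ^ 2)
      + ε * pen K s z v = 0)
    (hpos : ∀ z' v', 0 ≤ ρ1 s z' v' ^ 2 - ρ2 s z' v' - δ * Real.exp (-(K * s)) * (1 + v' ^ 2)
      + ε * pen K s z' v')
    (hbef : ∀ s' ∈ Icc 0 s, 0 ≤ ρ1 s' z v ^ 2 - ρ2 s' z v
      - δ * Real.exp (-(K * s')) * (1 + v ^ 2) + ε * pen K s' z v) : False := by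
  have ds := deriv_nonpos_of_left (f := fun x => ρ1 x z v ^ 2 - ρ2 x z v
      - δ * Real.exp (-(K * x)) * (1 + v ^ 2) + ε * pen K x z v) hs0 hzero hbef
    (((((D.s1 s z v hs0 hsS).pow 2).sub (D.s2 s z v hs0 hsS)).sub
      (((((hasDerivAt_id s).const_mul K).neg.exp).const_mul δ).mul_const (1 + v ^ 2))).add
      ((pen_s K s z v).const_mul ε))
  have dv := deriv_zero_of_min (f := fun x => ρ1 s z x ^ 2 - ρ2 s z x
      - δ * Real.exp (-(K * s)) * (1 + x ^ 2) + ε * pen K s z x) hzero (fun x => hpos z x)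
    (((((D.v1 s z v hs0 hsS).pow 2).sub (D.v2 s z v hs0 hsS)).sub
      ((((hasDerivAt_id v).pow 2).const_add 1).const_mul (δ * Real.exp (-(K * s))))).add
      ((pen_v K s z v).const_mul ε))
  have hdz : ∀ x, HasDerivAt (fun x => ρ1 s x v ^ 2 - ρ2 s x v
      - δ * Real.exp (-(K * s)) * (1 + v ^ 2) + ε * pen K s x v)
      (2 * ρ1 s x v * ρ1z s x v - ρ2z s x v
        + ε * (Real.exp (K * s) * (4 * x * (1 + x ^ 2 + v ^ 2)))) x := by
    intro x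
    have h := ((((D.z1 s x v hs0 hsS).pow 2).sub (D.z2 s x v hs0 hsS)).sub_const
      (δ * Real.exp (-(K * s)) * (1 + v ^ 2))).add ((pen_z K s x v).const_mul ε)
    refine h.congr_deriv ?_
    push_cast; ring
  have dz := deriv_zero_of_min (f := fun x => ρ1 s x v ^ 2 - ρ2 s x v
      - δ * Real.exp (-(K * s)) * (1 + v ^ 2) + ε * pen K s x v) (z := z) hzero
    (fun x => hpos x v) (hdz z)
  have hdzz : HasDerivAt (fun x => 2 * ρ1 s x v * ρ1z s x v - ρ2z s x v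
        + ε * (Real.exp (K * s) * (4 * x * (1 + x ^ 2 + v ^ 2))))
      (2 * ρ1z s z v * ρ1z s z v + 2 * ρ1 s z v * ρ1zz s z v - ρ2zz s z v
        + ε * (Real.exp (K * s) * (4 * (1 + z ^ 2 + v ^ 2) + 8 * z ^ 2))) z := by
    have h := (((((D.z1 s z v hs0 hsS).const_mul 2).mul (D.y1 s z v hs0 hsS)).sub
      (D.y2 s z v hs0 hsS))).add ((pen_zz K s z v).const_mul ε)
    exact h.congr_deriv (by ring)
  have dzz := deriv2_nonneg_of_min (f := fun x => ρ1 s x v ^ 2 - ρ2 s x v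
      - δ * Real.exp (-(K * s)) * (1 + v ^ 2) + ε * pen K s x v) (z := z) hzero
    (fun x => hpos x v) hdz hdzz
  simp only [id, mul_one, Nat.cast_ofNat, Nat.add_one_sub_one, pow_one, Pi.neg_apply] at ds dv
  have hm := D.bm s z v hs0 hsS
  have hR := D.bR s z hs0 hsS
  have he0 : 0 < Real.exp (-(K * s)) := Real.exp_pos _
  have hρ : ρ1z s z v = - δ * Real.exp (-(K * s)) * v
      + ε * (Real.exp (K * s) * (4 * v * (1 + z ^ 2 + v ^ 2))) / 2 := by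
    linarith [dv]
  have hsq := touch_sq hC hδ he0 hε hm hρ (pen_bd2 K s z v)
  have hRz := (abs_le.1 (touch_R hε hC hR (pen_bd1 K s z v))).2
  have hb3 := mul_le_mul_of_nonneg_left (pen_bd3 K s z v) hε.le
  have hεP : 0 < ε * pen K s z v := mul_pos hε (pen_pos K s z v)
  have hpos2 : 0 ≤ δ * Real.exp (-(K * s)) * (1 + v ^ 2) := by positivity
  have hfin : 0 < K * (δ * Real.exp (-(K * s)) * (1 + v ^ 2))
      - 2 * C * (δ * Real.exp (-(K * s)) * (1 + v ^ 2))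
      + (K - 6 - 8 * C - 4 * C) * (ε * pen K s z v) := by
    have h1 : 0 ≤ (K - 2 * C) * (δ * Real.exp (-(K * s)) * (1 + v ^ 2)) :=
      mul_nonneg (by rw [hK]; linarith) hpos2
    have h2 : 0 < (K - 6 - 8 * C - 4 * C) * (ε * pen K s z v) :=
      mul_pos (by rw [hK]; linarith) hεP
    linarith
  exact touch_a (a1 := ρ1 s z v) (a1z := ρ1z s z v) (a1zz := ρ1zz s z v) (a2z := ρ2z s z v)
    (a2zz := ρ2zz s z v) (R := R s z) (K := K) (X := δ * Real.exp (-(K * s)) * (1 + v ^ 2))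
    (P := ε * pen K s z v) (C := C) (by linarith [ds]) (by linarith [dz]) dzz hRz (by linarith [hsq])
    (by linarith [hb3]) hfin

theorem a_lower (D : Dat S C ρ1 ρ2 ρ3 ρ1z ρ2z ρ3z ρ1zz ρ2zz ρ3zz R) {δ : ℝ} (hδ : 0 < δ)
    (hC : 0 ≤ C) (h0 : ∀ z v, δ * (1 + v ^ 2) ≤ ρ1 0 z v ^ 2 - ρ2 0 z v) :
    ∀ s ∈ Icc 0 S, ∀ z v,
      δ * Real.exp (-((12 * C + 7) * s)) * (1 + v ^ 2) ≤ ρ1 s z v ^ 2 - ρ2 s z v := by
  set K : ℝ := 12 * C + 7 with hK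
  have hK0 : 0 ≤ K := by rw [hK]; positivity
  have main : ∀ ε : ℝ, 0 < ε → ∀ s ∈ Icc 0 S, ∀ z v,
      0 < ρ1 s z v ^ 2 - ρ2 s z v - δ * Real.exp (-(K * s)) * (1 + v ^ 2) + ε * pen K s z v := by
    intro ε hε
    by_contra hcon
    push Not at hcon
    obtain ⟨s, z, v, hs0, hsS, hzero, hpos, hbef⟩ := first_zero (S := S)
      (H := fun s z v => ρ1 s z v ^ 2 - ρ2 s z v - δ * Real.exp (-(K * s)) * (1 + v ^ 2)
        + ε * pen K s z v)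
      (r := Real.sqrt ((C + δ) / ε))
      (by
        refine (D.ca.sub ?_).add ?_
        · exact Continuous.continuousOn (by fun_prop)
        · exact (continuous_const.mul (pen_cont K)).continuousOn)
      (by
        intro z v
        have h1 := h0 z v
        have h2 := pen_pos K 0 z v
        simp only [mul_zero, neg_zero, Real.exp_zero, mul_one]
        nlinarith)
      (fun s hs z v hr => coer_a hC hδ hε hK0 hs.1 (D.ba s hs z v) hr)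
      hcon
    exact a_lower_aux D hδ hC hK hε hs0 hsS hzero hpos hbef
  intro s hs z v
  by_contra hcon
  push Not at hcon
  have hP := pen_pos K s z v
  have h1 := main ((δ * Real.exp (-(K * s)) * (1 + v ^ 2) - (ρ1 s z v ^ 2 - ρ2 s z v)) / pen K s z v)
    (div_pos (by linarith) hP) s hs z v
  rw [div_mul_cancel₀ _ hP.ne'] at h1
  linarith

end

end Vale.Agent.P227.SC.Flow
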