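import Vale.Agent.P227.SC.FlowB

/-!
P227, block SC: the maximum principle for `2 c a^{3/2} - b`.
-/

namespace Vale.Agent.P227.SC.Flow

open Set Filter Topology

theorem hasDerivAt_asqrt {A : ℝ → ℝ} {A' x : ℝ} (hA : HasDerivAt A A' x) (h : 0 < A x) :
    HasDerivAt (fun y => A y * Real.sqrt (A y)) (3 / 2 * Real.sqrt (A x) * A') x := by
  have h1 := hA.mul (hA.sqrt h.ne')
  refine h1.congr_deriv ?_
  have hs : 0 < Real.sqrt (A x) := Real.sqrt_pos.2 h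
  have h2 : Real.sqrt (A x) * Real.sqrt (A x) = A x := Real.mul_self_sqrt h.le
  have h3 : A x * (A' / (2 * Real.sqrt (A x))) = Real.sqrt (A x) * A' / 2 := by
    rw [mul_div_assoc', div_eq_div_iff (by positivity) (by norm_num)]
    nth_rewrite 1 [← h2]
    ring
  rw [h3]; ring

/-- coercivity, second use -/
theorem coer_b {C ε K s z v b X : ℝ} (hC : 0 ≤ C) (hε : 0 < ε) (hK0 : 0 ≤ K)
    (hs : 0 ≤ s) (hb : |b| ≤ C * (1 + |v|) ^ 3) (hX : 0 ≤ X)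
    (hr : Real.sqrt (8 * C ^ 2 / ε ^ 2) < |z| ∨ Real.sqrt (8 * C ^ 2 / ε ^ 2) < |v|) :
    0 < X - b + ε * pen K s z v := by
  have h1 := (abs_le.1 hb).2
  have h2 := pen_ge hK0 hs z v
  set N := 1 + z ^ 2 + v ^ 2 with hNdef
  have hN : 8 * C ^ 2 / ε ^ 2 < N := by
    rcases hr with hr | hr
    · have := (Real.sqrt_lt' (lt_of_le_of_lt (Real.sqrt_nonneg _) hr)).1 hr
      rw [sq_abs] at this
      nlinarith [sq_nonneg v]
    · have := (Real.sqrt_lt' (lt_of_le_of_lt (Real.sqrt_nonneg _) hr)).1 hr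
      rw [sq_abs] at this
      nlinarith [sq_nonneg z]
  have hN2 : 8 * C ^ 2 < N * ε ^ 2 := by
    rwa [div_lt_iff₀ (by positivity)] at hN
  have hNpos : 0 < N := by positivity
  set x := 1 + |v| with hx
  have hx0 : 0 < x := by positivity
  have hxN : x ^ 2 ≤ 2 * N := by
    rw [hx, hNdef]
    nlinarith [abs_nonneg v, sq_abs v, sq_nonneg (|v| - 1), sq_nonneg z]
  have h3 : 2 * C * x < ε * N := by
    by_contra hcon
    push Not at hcon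
    have h4 : (ε * N) ^ 2 ≤ (2 * C * x) ^ 2 := pow_le_pow_left₀ (by positivity) hcon 2
    have h5 : (2 * C * x) ^ 2 ≤ 8 * C ^ 2 * N := by
      have : 4 * C ^ 2 * x ^ 2 ≤ 4 * C ^ 2 * (2 * N) :=
        mul_le_mul_of_nonneg_left hxN (by positivity)
      nlinarith
    have h6 : 8 * C ^ 2 * N < N * ε ^ 2 * N := mul_lt_mul_of_pos_right hN2 hNpos
    nlinarith
  have h7 : C * x ^ 3 ≤ C * x * (2 * N) := by
    have : C * x * x ^ 2 ≤ C * x * (2 * N) := mul_le_mul_of_nonneg_left hxN (by positivity)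
    nlinarith
  have h8 : C * x * (2 * N) < ε * N ^ 2 := by
    have : 2 * C * x * N < ε * N * N := mul_lt_mul_of_pos_right h3 hNpos
    nlinarith
  have h4 : ε * N ^ 2 ≤ ε * pen K s z v := mul_le_mul_of_nonneg_left h2 hε.le
  linarith

/-- The identity at the touching point. -/
theorem touch_ident {c t m q : ℝ} (ht : 0 < t) :
    -(3 * c * t * m ^ 2) - 3 / 4 * c * (q ^ 2 / t) - 3 * m * q
      = ((-1 + c ^ 2 / 2) * (-m) + c / 4 * (q / t)) * (-(6 * c * t * m) - 3 * q)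
        + 3 * c * (1 - c ^ 2) * t * m ^ 2 := by
  field_simp
  ring

theorem touch_b {c t a1 a2 a1z a2z a3z a1zz a2zz a3zz R K P Pz Pzz Pv C C' : ℝ} (ht : 0 < t)
    (hc : 0 ≤ c) (hc1 : c ≤ 1) (hP : 0 < P)
    (hds : 3 * c * t * (2 * a1 * (a1zz / 2 + R * a1z) - (a2zz / 2 + R * a2z))
      - (-(a3zz / 2 + R * a3z) + 3 * ((a1zz / 2 + R * a1z) * a2 + a1 * (a2zz / 2 + R * a2z))
        - 6 * a1 ^ 2 * (a1zz / 2 + R * a1z)) + K * P ≤ 0)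
    (hdz : 3 * c * t * (2 * a1 * a1z - a2z)
      - (-a3z + 3 * (a1z * a2 + a1 * a2z) - 6 * a1 ^ 2 * a1z) + Pz = 0)
    (hdzz : 0 ≤ 3 * c * (t * (2 * a1z ^ 2 + 2 * a1 * a1zz - a2zz)
        + (2 * a1 * a1z - a2z) ^ 2 / (2 * t))
      - (-a3zz + 3 * (a1zz * a2 + 2 * a1z * a2z + a1 * a2zz) - 12 * a1 * a1z ^ 2
        - 6 * a1 ^ 2 * a1zz) + Pzz)
    (hdv : 3 * c * t * (-2 * a1z) - 3 * (2 * a1 * a1z - a2z) + Pv = 0)
    (hR : R * Pz ≤ 8 * C * P) (hPzz : Pzz ≤ 12 * P)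
    (hr : |((-1 + c ^ 2 / 2) * (-a1z) + c / 4 * ((2 * a1 * a1z - a2z) / t)) * Pv| ≤ 8 * C' * P)
    (hK : 8 * C + 8 * C' + 6 < K) : False := by
  have hid := touch_ident (c := c) (t := t) (m := a1z) (q := 2 * a1 * a1z - a2z) ht
  have e1 : -(6 * c * t * a1z) - 3 * (2 * a1 * a1z - a2z) = -Pv := by linarith
  rw [e1] at hid
  set q := 2 * a1 * a1z - a2z with hq
  set r := (-1 + c ^ 2 / 2) * (-a1z) + c / 4 * (q / t) with hrdef
  have hr' := (abs_le.1 hr).2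
  have hpos : 0 ≤ 3 * c * (1 - c ^ 2) * t * a1z ^ 2 := by
    have : 0 ≤ 1 - c ^ 2 := by nlinarith
    positivity
  have hq2 : q ^ 2 / (2 * t) = (q ^ 2 / t) / 2 := by
    rw [div_div, mul_comm]
  rw [hq2] at hdzz
  set Q := q ^ 2 / t with hQ
  -- R times the first order condition
  have hRz : R * (3 * c * t * q - (-a3z + 3 * (a1z * a2 + a1 * a2z) - 6 * a1 ^ 2 * a1z))
      = - (R * Pz) := by
    have : 3 * c * t * q - (-a3z + 3 * (a1z * a2 + a1 * a2z) - 6 * a1 ^ 2 * a1z) = -Pz := by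
      linarith
    rw [this]; ring
  have key : 3 * c * t * (2 * a1 * (a1zz / 2 + R * a1z) - (a2zz / 2 + R * a2z))
      - (-(a3zz / 2 + R * a3z) + 3 * ((a1zz / 2 + R * a1z) * a2 + a1 * (a2zz / 2 + R * a2z))
        - 6 * a1 ^ 2 * (a1zz / 2 + R * a1z))
      - 1 / 2 * (3 * c * (t * (2 * a1z ^ 2 + 2 * a1 * a1zz - a2zz) + Q / 2)
      - (-a3zz + 3 * (a1zz * a2 + 2 * a1z * a2z + a1 * a2zz) - 12 * a1 * a1z ^ 2
        - 6 * a1 ^ 2 * a1zz))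
      - R * (3 * c * t * q - (-a3z + 3 * (a1z * a2 + a1 * a2z) - 6 * a1 ^ 2 * a1z))
      = -(3 * c * t * a1z ^ 2) - 3 / 4 * c * Q - 3 * a1z * q := by
    rw [hq]; ring
  rw [hid, hRz] at key
  have h1 : r * -Pv = -(r * Pv) := by ring
  rw [h1] at key
  have h2 : 0 < (K - 6 - 8 * C - 8 * C') * P := mul_pos (by linarith) hP
  nlinarith

theorem g_r {C κ c m q t v ε P Pv a : ℝ} (hC : 0 ≤ C) (hκ : 0 < κ) (hε : 0 < ε) (hc : 0 ≤ c)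
    (hc1 : c ≤ 1) (ht0 : 0 < t) (ht : t = Real.sqrt a) (hlow : κ ^ 2 * (1 + v ^ 2) ≤ a)
    (hm : |m| ≤ C * (1 + |v|)) (hq : |q| ≤ C * (1 + v ^ 2)) (b2 : (1 + |v|) * |Pv| ≤ 8 * P) :
    |((-1 + c ^ 2 / 2) * (-m) + c / 4 * (q / t)) * (ε * Pv)| ≤ 8 * (C + C / κ) * (ε * P) := by
  refine touch_R hε (by positivity) ?_ b2
  have hκv : κ * (1 + |v|) ≤ 2 * t := by
    have h1 : κ * (1 + |v|) / 2 ≤ Real.sqrt a := by
      apply Real.le_sqrt_of_sq_le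
      refine le_trans ?_ hlow
      have : (1 + |v|) ^ 2 ≤ 2 * (1 + v ^ 2) := by
        nlinarith [abs_nonneg v, sq_abs v, sq_nonneg (|v| - 1)]
      have h2 : κ ^ 2 * (1 + |v|) ^ 2 ≤ κ ^ 2 * (2 * (1 + v ^ 2)) :=
        mul_le_mul_of_nonneg_left this (by positivity)
      have h3 : 0 ≤ κ ^ 2 * (1 + v ^ 2) := by positivity
      nlinarith
    rw [← ht] at h1
    linarith
  have hqt : |q / t| ≤ 2 * (C / κ) * (1 + |v|) := by
    rw [abs_div, abs_of_pos ht0, div_le_iff₀ ht0]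
    have h1 : (1 + v ^ 2) ≤ (1 + |v|) * (1 + |v|) := by
      nlinarith [abs_nonneg v, sq_abs v]
    have h2 : C * (1 + v ^ 2) ≤ C * ((1 + |v|) * (1 + |v|)) := mul_le_mul_of_nonneg_left h1 hC
    have h3 : C / κ * (1 + |v|) * (κ * (1 + |v|)) ≤ C / κ * (1 + |v|) * (2 * t) :=
      mul_le_mul_of_nonneg_left hκv (by positivity)
    have h4 : C / κ * (1 + |v|) * (κ * (1 + |v|)) = C * ((1 + |v|) * (1 + |v|)) := by
      field_simp
    calc _ ≤ C * (1 + v ^ 2) := hq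
      _ ≤ C * ((1 + |v|) * (1 + |v|)) := h2
      _ = C / κ * (1 + |v|) * (κ * (1 + |v|)) := h4.symm
      _ ≤ C / κ * (1 + |v|) * (2 * t) := h3
      _ = _ := by ring
  have hc2 : |(-1 + c ^ 2 / 2)| ≤ 1 := by rw [abs_le]; constructor <;> nlinarith
  have h5 : |(-1 + c ^ 2 / 2) * (-m)| ≤ C * (1 + |v|) := by
    rw [abs_mul, abs_neg]
    calc _ ≤ 1 * |m| := mul_le_mul_of_nonneg_right hc2 (abs_nonneg _)
      _ ≤ _ := by rw [one_mul]; exact hm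
  have h6 : |c / 4 * (q / t)| ≤ C / κ * (1 + |v|) := by
    rw [abs_mul, abs_of_nonneg (by positivity : 0 ≤ c / 4)]
    have h7 : c / 4 * |q / t| ≤ 1 / 4 * (2 * (C / κ) * (1 + |v|)) :=
      mul_le_mul (by linarith) hqt (abs_nonneg _) (by norm_num)
    have h8 : 0 ≤ C / κ * (1 + |v|) := by positivity
    linarith
  calc _ ≤ _ := abs_add_le _ _
    _ ≤ C * (1 + |v|) + C / κ * (1 + |v|) := add_le_add h5 h6
    _ = _ := by ring

/-- Derivative of `2 c a^{3/2} - b + ε P` in one variable. -/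
theorem g_der {f1 f2 f3 P : ℝ → ℝ} {d1 d2 d3 dP x c ε : ℝ} (h1 : HasDerivAt f1 d1 x)
    (h2 : HasDerivAt f2 d2 x) (h3 : HasDerivAt f3 d3 x) (hP : HasDerivAt P dP x)
    (ha : 0 < f1 x ^ 2 - f2 x) :
    HasDerivAt (fun y => 2 * c * ((f1 y ^ 2 - f2 y) * Real.sqrt (f1 y ^ 2 - f2 y))
      - (- f3 y + 3 * f1 y * f2 y - 2 * f1 y ^ 3) + ε * P y)
      (3 * c * Real.sqrt (f1 x ^ 2 - f2 x) * (2 * f1 x * d1 - d2)
        - (-d3 + 3 * (d1 * f2 x + f1 x * d2) - 6 * f1 x ^ 2 * d1) + ε * dP) x := by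
  have h := ((((hasDerivAt_asqrt ((h1.pow 2).sub h2) ha).const_mul (2 * c)).sub
    ((h3.neg.add ((h1.const_mul 3).mul h2)).sub ((h1.pow 3).const_mul 2))).add
    (hP.const_mul ε))
  refine h.congr_deriv ?_
  simp only [Pi.sub_apply, Pi.pow_apply]
  push_cast
  ring

theorem g_der2 {f1 f2 f1z f2z f3z Q : ℝ → ℝ} {a1z a2z a1zz a2zz a3zz dQ x c ε : ℝ}
    (h1 : HasDerivAt f1 a1z x) (h2 : HasDerivAt f2 a2z x) (y1 : HasDerivAt f1z a1zz x)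
    (y2 : HasDerivAt f2z a2zz x) (y3 : HasDerivAt f3z a3zz x) (hQ : HasDerivAt Q dQ x)
    (e1 : f1z x = a1z) (e2 : f2z x = a2z) (ha : 0 < f1 x ^ 2 - f2 x) :
    HasDerivAt (fun y => 3 * c * Real.sqrt (f1 y ^ 2 - f2 y) * (2 * f1 y * f1z y - f2z y)
        - (-f3z y + 3 * (f1z y * f2 y + f1 y * f2z y) - 6 * f1 y ^ 2 * f1z y) + ε * Q y)
      (3 * c * (Real.sqrt (f1 x ^ 2 - f2 x) * (2 * a1z ^ 2 + 2 * f1 x * a1zz - a2zz)
        + (2 * f1 x * a1z - a2z) ^ 2 / (2 * Real.sqrt (f1 x ^ 2 - f2 x)))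
      - (-a3zz + 3 * (a1zz * f2 x + 2 * a1z * a2z + f1 x * a2zz) - 12 * f1 x * a1z ^ 2
        - 6 * f1 x ^ 2 * a1zz) + ε * dQ) x := by
  have hA := (h1.pow 2).sub h2
  have hq := ((h1.const_mul 2).mul y1).sub y2
  have g1 := ((hA.sqrt ha.ne').const_mul (3 * c)).mul hq
  have g2 := (y3.neg.add (((y1.mul h2).add (h1.mul y2)).const_mul 3)).sub
    (((h1.pow 2).const_mul 6).mul y1)
  have h := (g1.sub g2).add (hQ.const_mul ε)
  refine h.congr_deriv ?_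
  simp only [Pi.sub_apply, Pi.pow_apply, Pi.mul_apply, e1, e2]
  push_cast
  ring

section
variable {S C : ℝ} {ρ1 ρ2 ρ3 ρ1z ρ2z ρ3z ρ1zz ρ2zz ρ3zz : ℝ → ℝ → ℝ → ℝ} {R : ℝ → ℝ → ℝ}

theorem g_aux (D : Dat S C ρ1 ρ2 ρ3 ρ1z ρ2z ρ3z ρ1zz ρ2zz ρ3zz R)
    (hC : 0 ≤ C) {c κ : ℝ} (hc : 0 ≤ c) (hc1 : c ≤ 1) (hκ : 0 < κ)
    (hlow : ∀ s ∈ Icc 0 S, ∀ z v, κ ^ 2 * (1 + v ^ 2) ≤ ρ1 s z v ^ 2 - ρ2 s z v)
    {K : ℝ} (hK : K = 8 * C + 8 * (C + C / κ) + 7) {ε : ℝ} (hε : 0 < ε) {s z v : ℝ}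
    (hs0 : 0 < s) (hsS : s ≤ S)
    (hzero : 2 * c * ((ρ1 s z v ^ 2 - ρ2 s z v) * Real.sqrt (ρ1 s z v ^ 2 - ρ2 s z v))
      - (- ρ3 s z v + 3 * ρ1 s z v * ρ2 s z v - 2 * ρ1 s z v ^ 3) + ε * pen K s z v = 0)
    (hpos : ∀ z v, 0 ≤ 2 * c * ((ρ1 s z v ^ 2 - ρ2 s z v)
      * Real.sqrt (ρ1 s z v ^ 2 - ρ2 s z v))
      - (- ρ3 s z v + 3 * ρ1 s z v * ρ2 s z v - 2 * ρ1 s z v ^ 3) + ε * pen K s z v)
    (hbef : ∀ x ∈ Icc 0 s, 0 ≤ 2 * c * ((ρ1 x z v ^ 2 - ρ2 x z v)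
      * Real.sqrt (ρ1 x z v ^ 2 - ρ2 x z v))
      - (- ρ3 x z v + 3 * ρ1 x z v * ρ2 x z v - 2 * ρ1 x z v ^ 3) + ε * pen K x z v) :
    False := by
  have hmem : s ∈ Icc 0 S := ⟨hs0.le, hsS⟩
  have hapos : ∀ z v, 0 < ρ1 s z v ^ 2 - ρ2 s z v := fun z v =>
    lt_of_lt_of_le (by positivity) (hlow s hmem z v)
  have ds := deriv_nonpos_of_left hs0 hzero hbef
    (g_der (c := c) (ε := ε) (D.s1 s z v hs0 hsS) (D.s2 s z v hs0 hsS) (D.s3 s z v hs0 hsS)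
      (pen_s K s z v) (hapos z v))
  have dv := deriv_zero_of_min (f := fun v => 2 * c * ((ρ1 s z v ^ 2 - ρ2 s z v)
      * Real.sqrt (ρ1 s z v ^ 2 - ρ2 s z v))
      - (- ρ3 s z v + 3 * ρ1 s z v * ρ2 s z v - 2 * ρ1 s z v ^ 3) + ε * pen K s z v) (z := v)
    hzero (fun v => hpos z v)
    (g_der (c := c) (ε := ε) (D.v1 s z v hs0 hsS) (D.v2 s z v hs0 hsS) (D.v3 s z v hs0 hsS)
      (pen_v K s z v) (hapos z v))
  have hdz := fun z => g_der (c := c) (ε := ε) (D.z1 s z v hs0 hsS) (D.z2 s z v hs0 hsS)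
    (D.z3 s z v hs0 hsS) (pen_z K s z v) (hapos z v)
  have dz := deriv_zero_of_min (f := fun z => 2 * c * ((ρ1 s z v ^ 2 - ρ2 s z v)
      * Real.sqrt (ρ1 s z v ^ 2 - ρ2 s z v))
      - (- ρ3 s z v + 3 * ρ1 s z v * ρ2 s z v - 2 * ρ1 s z v ^ 3) + ε * pen K s z v) (z := z)
    hzero (fun z => hpos z v) (hdz z)
  have hdzz := g_der2 (c := c) (ε := ε) (D.z1 s z v hs0 hsS) (D.z2 s z v hs0 hsS)
    (D.y1 s z v hs0 hsS) (D.y2 s z v hs0 hsS) (D.y3 s z v hs0 hsS) (pen_zz K s z v) rfl rfl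
    (hapos z v)
  have dzz := deriv2_nonneg_of_min (f := fun z => 2 * c * ((ρ1 s z v ^ 2 - ρ2 s z v)
      * Real.sqrt (ρ1 s z v ^ 2 - ρ2 s z v))
      - (- ρ3 s z v + 3 * ρ1 s z v * ρ2 s z v - 2 * ρ1 s z v ^ 3) + ε * pen K s z v) (z := z)
    hzero (fun z => hpos z v) hdz hdzz
  have ht : 0 < Real.sqrt (ρ1 s z v ^ 2 - ρ2 s z v) := Real.sqrt_pos.2 (hapos z v)
  have hRz := (abs_le.1 (touch_R hε hC (D.bR s z hs0 hsS) (pen_bd1 K s z v))).2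
  have hb3 := mul_le_mul_of_nonneg_left (pen_bd3 K s z v) hε.le
  have hεP : 0 < ε * pen K s z v := mul_pos hε (pen_pos K s z v)
  have hr := g_r (ε := ε) hC hκ hε hc hc1 ht rfl (hlow s hmem z v) (D.bm s z v hs0 hsS)
    (D.bq s z v hs0 hsS) (pen_bd2 K s z v)
  exact touch_b (c := c) (t := Real.sqrt (ρ1 s z v ^ 2 - ρ2 s z v)) (a1 := ρ1 s z v)
    (a2 := ρ2 s z v) (a1z := ρ1z s z v) (a2z := ρ2z s z v) (a3z := ρ3z s z v)
    (a1zz := ρ1zz s z v) (a2zz := ρ2zz s z v) (a3zz := ρ3zz s z v) (R := R s z) (K := K)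
    (P := ε * pen K s z v) (C := C) (C' := C + C / κ)
    (Pz := ε * (Real.exp (K * s) * (4 * z * (1 + z ^ 2 + v ^ 2))))
    (Pv := ε * (Real.exp (K * s) * (4 * v * (1 + z ^ 2 + v ^ 2))))
    (Pzz := ε * (Real.exp (K * s) * (4 * (1 + z ^ 2 + v ^ 2) + 8 * z ^ 2)))
    ht hc hc1 hεP (by linarith [ds]) dz dzz
    (by
      have h := dv
      have e : 2 * ρ1 s z v * R s z - 2 * (ρ1z s z v + ρ1 s z v * R s z)
        = -2 * ρ1z s z v := by ring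
      rw [e] at h
      have e2 : (-(3 * (ρ2z s z v + ρ2 s z v * R s z)) + 3 * (R s z * ρ2 s z v
        + ρ1 s z v * (2 * (ρ1z s z v + ρ1 s z v * R s z))) - 6 * ρ1 s z v ^ 2 * R s z)
        = 3 * (2 * ρ1 s z v * ρ1z s z v - ρ2z s z v) := by ring
      rw [e2] at h
      exact h)
    hRz (by linarith [hb3]) hr (by rw [hK]; linarith)

theorem g_lower (D : Dat S C ρ1 ρ2 ρ3 ρ1z ρ2z ρ3z ρ1zz ρ2zz ρ3zz R) {δ c : ℝ} (hδ : 0 < δ)
    (hC : 0 ≤ C) (hc : 0 ≤ c) (hc1 : c ≤ 1)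
    (h0 : ∀ z v, δ * (1 + v ^ 2) ≤ ρ1 0 z v ^ 2 - ρ2 0 z v)
    (h1 : ∀ z v, - ρ3 0 z v + 3 * ρ1 0 z v * ρ2 0 z v - 2 * ρ1 0 z v ^ 3
      ≤ 2 * c * ((ρ1 0 z v ^ 2 - ρ2 0 z v) * Real.sqrt (ρ1 0 z v ^ 2 - ρ2 0 z v))) :
    ∀ s ∈ Icc 0 S, ∀ z v, - ρ3 s z v + 3 * ρ1 s z v * ρ2 s z v - 2 * ρ1 s z v ^ 3
      ≤ 2 * c * ((ρ1 s z v ^ 2 - ρ2 s z v) * Real.sqrt (ρ1 s z v ^ 2 - ρ2 s z v)) := by
  set κ : ℝ := Real.sqrt (δ * Real.exp (-((12 * C + 7) * S))) with hκdef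
  have hκ : 0 < κ := Real.sqrt_pos.2 (by positivity)
  have hκ2 : κ ^ 2 = δ * Real.exp (-((12 * C + 7) * S)) := Real.sq_sqrt (by positivity)
  have hlow : ∀ s ∈ Icc 0 S, ∀ z v, κ ^ 2 * (1 + v ^ 2) ≤ ρ1 s z v ^ 2 - ρ2 s z v := by
    intro s hs z v
    refine le_trans ?_ (a_lower D hδ hC h0 s hs z v)
    rw [hκ2]
    refine mul_le_mul_of_nonneg_right (mul_le_mul_of_nonneg_left ?_ hδ.le) (by positivity)
    apply Real.exp_le_exp.2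
    have : (12 * C + 7) * s ≤ (12 * C + 7) * S := mul_le_mul_of_nonneg_left hs.2 (by positivity)
    linarith
  set K : ℝ := 8 * C + 8 * (C + C / κ) + 7 with hK
  have hK0 : 0 ≤ K := by rw [hK]; positivity
  have main : ∀ ε : ℝ, 0 < ε → ∀ s ∈ Icc 0 S, ∀ z v,
      0 < 2 * c * ((ρ1 s z v ^ 2 - ρ2 s z v) * Real.sqrt (ρ1 s z v ^ 2 - ρ2 s z v))
      - (- ρ3 s z v + 3 * ρ1 s z v * ρ2 s z v - 2 * ρ1 s z v ^ 3) + ε * pen K s z v := by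
    intro ε hε
    by_contra hcon
    push Not at hcon
    obtain ⟨s, z, v, hs0, hsS, hzero, hpos, hbef⟩ := first_zero (S := S)
      (H := fun s z v => 2 * c * ((ρ1 s z v ^ 2 - ρ2 s z v)
        * Real.sqrt (ρ1 s z v ^ 2 - ρ2 s z v))
        - (- ρ3 s z v + 3 * ρ1 s z v * ρ2 s z v - 2 * ρ1 s z v ^ 3) + ε * pen K s z v)
      (r := Real.sqrt (8 * C ^ 2 / ε ^ 2))
      (by
        refine ((continuousOn_const.mul (D.ca.mul D.ca.sqrt)).sub D.cb).add ?_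
        exact (continuous_const.mul (pen_cont K)).continuousOn)
      (by
        intro z v
        have h2 := h1 z v
        have h3 := mul_pos hε (pen_pos K 0 z v)
        linarith)
      (fun s hs z v hr => coer_b hC hε hK0 hs.1 (D.bb s hs z v) (by
        have := hlow s hs z v
        have h3 : 0 ≤ ρ1 s z v ^ 2 - ρ2 s z v := le_trans (by positivity) this
        positivity) hr)
      hcon
    exact g_aux D hC hc hc1 hκ hlow hK hε hs0 hsS hzero hpos hbef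
  intro s hs z v
  by_contra hcon
  push Not at hcon
  have hP := pen_pos K s z v
  have h1 := main ((- ρ3 s z v + 3 * ρ1 s z v * ρ2 s z v - 2 * ρ1 s z v ^ 3
      - 2 * c * ((ρ1 s z v ^ 2 - ρ2 s z v) * Real.sqrt (ρ1 s z v ^ 2 - ρ2 s z v))) / pen K s z v)
    (div_pos (by linarith) hP) s hs z v
  rw [div_mul_cancel₀ _ hP.ne'] at h1
  linarith

end

end Vale.Agent.P227.SC.Flow
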