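import Mathlib

/-!
# P227, block SC: heat kernel calculus in one variable

`kern F s z = ∫ F(y) e^{-(y-z)²/(2s)} dy` and its derivatives.
-/

open MeasureTheory Filter Topology Set

namespace Vale.Agent.P227.SC.Flow

noncomputable def kern (F : ℝ → ℝ) (s z : ℝ) : ℝ :=
  ∫ y, F y * Real.exp (-(y-z)^2/(2*s))

noncomputable def kern1 (F : ℝ → ℝ) (s z : ℝ) : ℝ :=
  ∫ y, F y * ((y-z)/s) * Real.exp (-(y-z)^2/(2*s))

noncomputable def kern2 (F : ℝ → ℝ) (s z : ℝ) : ℝ :=
  ∫ y, F y * (((y-z)/s)^2 - 1/s) * Real.exp (-(y-z)^2/(2*s))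

noncomputable def hp (F : ℝ → ℝ) (s z : ℝ) : ℝ :=
  ∫ x, F (z + Real.sqrt s * x) * Real.exp (-x^2/2)

/-- the Gaussian dominating function -/
noncomputable def dm (s0 z0 y : ℝ) : ℝ := Real.exp (-(1/(16*s0)) * (y-z0)^2)

lemma dm_int {s0 : ℝ} (hs : 0 < s0) (z0 : ℝ) : Integrable (dm s0 z0) := by
  have h : Integrable (fun x : ℝ => Real.exp (-(1/(16*s0)) * x^2)) :=
    integrable_exp_neg_mul_sq (by positivity)
  exact h.comp_sub_right z0

lemma one_add_sq_le {b t : ℝ} (hb : 0 < b) : 1 + t^2 ≤ (1 + 1/b) * Real.exp (b*t^2) := by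
  have h1 : b*t^2 + 1 ≤ Real.exp (b*t^2) := Real.add_one_le_exp _
  have h2 : (1 + 1/b) * (b*t^2 + 1) ≤ (1 + 1/b) * Real.exp (b*t^2) :=
    mul_le_mul_of_nonneg_left h1 (by positivity)
  have h3 : (1 + 1/b) * (b*t^2 + 1) = 1 + t^2 + b*t^2 + 1/b := by
    field_simp; ring
  have h4 : 0 ≤ b*t^2 + 1/b := by positivity
  linarith

lemma dom_bound {s s0 z z0 y : ℝ} (hs : 0 < s) (hs0 : s ≤ 2*s0) (hz : |z - z0| ≤ 1) :
    (1 + (y-z)^2) * Real.exp (-(y-z)^2/(2*s)) ≤
      (1 + 8*s0) * Real.exp (1/(8*s0)) * dm s0 z0 y := by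
  have hs00 : 0 < s0 := by linarith
  have h1 : Real.exp (-(y-z)^2/(2*s)) ≤ Real.exp (-(y-z)^2/(4*s0)) := by
    apply Real.exp_le_exp.2
    rw [neg_div, neg_div, neg_le_neg_iff]
    apply div_le_div_of_nonneg_left (sq_nonneg _) (by positivity) (by linarith)
  have h2 : 1 + (y-z)^2 ≤ (1 + 8*s0) * Real.exp ((y-z)^2/(8*s0)) := by
    have := one_add_sq_le (b := 1/(8*s0)) (t := y-z) (by positivity)
    have e1 : 1 + 1/(1/(8*s0)) = 1 + 8*s0 := by rw [one_div_one_div]
    have e2 : 1/(8*s0)*(y-z)^2 = (y-z)^2/(8*s0) := by ring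
    rw [e1, e2] at this
    exact this
  have h3 : -(y-z)^2/(8*s0) ≤ 1/(8*s0) + -(1/(16*s0)) * (y-z0)^2 := by
    have h4 : (y-z0)^2 ≤ 2*(y-z)^2 + 2*1 := by
      have h5 : (z-z0)^2 ≤ 1 := by
        have := abs_le.1 hz
        nlinarith
      nlinarith [sq_nonneg ((y-z) - (z-z0))]
    have h6 : 0 < 1/(16*s0) := by positivity
    have h7 := mul_le_mul_of_nonneg_left h4 h6.le
    have e1 : -(y-z)^2/(8*s0) = -(2*(1/(16*s0))*(y-z)^2) := by field_simp; ring
    have e2 : 1/(8*s0) = 2*(1/(16*s0)) := by field_simp; ring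
    rw [e1, e2]
    linarith
  calc (1 + (y-z)^2) * Real.exp (-(y-z)^2/(2*s))
      ≤ ((1 + 8*s0) * Real.exp ((y-z)^2/(8*s0))) * Real.exp (-(y-z)^2/(4*s0)) :=
        mul_le_mul h2 h1 (Real.exp_pos _).le (by positivity)
    _ = (1 + 8*s0) * Real.exp (-(y-z)^2/(8*s0)) := by
        rw [mul_assoc, ← Real.exp_add]
        congr 2
        field_simp; ring
    _ ≤ (1 + 8*s0) * Real.exp (1/(8*s0) + -(1/(16*s0)) * (y-z0)^2) :=
        mul_le_mul_of_nonneg_left (Real.exp_le_exp.2 h3) (by positivity)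
    _ = (1 + 8*s0) * Real.exp (1/(8*s0)) * dm s0 z0 y := by
        rw [Real.exp_add, dm]; ring

/-- the general domination -/
lemma dom_int {s s0 z z0 y B Q f q : ℝ} (hs : 0 < s) (hs0 : s ≤ 2*s0) (hz : |z - z0| ≤ 1)
    (hf : |f| ≤ B) (hq : |q| ≤ Q * (1 + (y-z)^2)) :
    ‖f * q * Real.exp (-(y-z)^2/(2*s))‖ ≤
      B * Q * ((1 + 8*s0) * Real.exp (1/(8*s0))) * dm s0 z0 y := by
  have hB : 0 ≤ B := (abs_nonneg f).trans hf
  have hQ : 0 ≤ Q := by
    by_contra h
    push Not at h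
    have h1 : Q * (1 + (y-z)^2) < 0 := mul_neg_of_neg_of_pos h (by positivity)
    linarith [abs_nonneg q]
  have h1 := dom_bound (y := y) hs hs0 hz
  rw [Real.norm_eq_abs, abs_mul, abs_mul, abs_of_pos (Real.exp_pos _)]
  calc |f| * |q| * Real.exp (-(y-z)^2/(2*s))
      ≤ B * (Q * (1 + (y-z)^2)) * Real.exp (-(y-z)^2/(2*s)) := by
        apply mul_le_mul_of_nonneg_right _ (Real.exp_pos _).le
        exact mul_le_mul hf hq (abs_nonneg _) hB
    _ = B * Q * ((1 + (y-z)^2) * Real.exp (-(y-z)^2/(2*s))) := by ring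
    _ ≤ B * Q * ((1 + 8*s0) * Real.exp (1/(8*s0)) * dm s0 z0 y) :=
        mul_le_mul_of_nonneg_left h1 (mul_nonneg hB hQ)
    _ = B * Q * ((1 + 8*s0) * Real.exp (1/(8*s0))) * dm s0 z0 y := by ring

/-- integrability of the integrands -/
lemma integ {F q : ℝ → ℝ} {s z B Q : ℝ} (hs : 0 < s) (hF : Continuous F) (hB : ∀ y, |F y| ≤ B)
    (hq : Continuous q) (hQ : ∀ y, |q y| ≤ Q * (1 + (y-z)^2)) :
    Integrable (fun y => F y * q y * Real.exp (-(y-z)^2/(2*s))) := by
  refine Integrable.mono' ((dm_int hs z).const_mul (B * Q * ((1 + 8*s) * Real.exp (1/(8*s)))))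
    ?_ ?_
  · exact ((hF.mul hq).mul (by fun_prop)).aestronglyMeasurable
  · exact Eventually.of_forall fun y =>
      dom_int hs (by linarith) (by simp) (hB y) (hQ y)

lemma integ0 {F : ℝ → ℝ} {s z B : ℝ} (hs : 0 < s) (hF : Continuous F) (hB : ∀ y, |F y| ≤ B) :
    Integrable (fun y => F y * Real.exp (-(y-z)^2/(2*s))) := by
  have := integ (q := fun _ => 1) (Q := 1) (z := z) hs hF hB continuous_const (by
    intro y; rw [abs_one]; nlinarith [sq_nonneg (y-z)])
  simpa using this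

lemma q1_bound {s z y : ℝ} (hs : 0 < s) : |(y-z)/s| ≤ (1/s) * (1 + (y-z)^2) := by
  rw [abs_div, abs_of_pos hs, div_eq_mul_inv, one_div, mul_comm]
  apply mul_le_mul_of_nonneg_left _ (by positivity)
  rw [← sq_abs (y-z)]
  nlinarith [sq_nonneg (|y-z| - 1), abs_nonneg (y-z)]

lemma q2_bound {s z y : ℝ} (hs : 0 < s) :
    |((y-z)/s)^2 - 1/s| ≤ (1/s^2 + 1/s) * (1 + (y-z)^2) := by
  have h1 : ((y-z)/s)^2 = (1/s^2) * (y-z)^2 := by field_simp
  rw [h1]
  have h2 : 0 ≤ 1/s^2 := by positivity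
  have h3 : 0 ≤ 1/s := by positivity
  have h4 := sq_nonneg (y-z)
  rw [abs_le]
  constructor
  · nlinarith [mul_nonneg h2 h4, mul_nonneg h3 h4]
  · nlinarith [mul_nonneg h2 h4, mul_nonneg h3 h4]

lemma integ1 {F : ℝ → ℝ} {s z B : ℝ} (hs : 0 < s) (hF : Continuous F) (hB : ∀ y, |F y| ≤ B) :
    Integrable (fun y => F y * ((y-z)/s) * Real.exp (-(y-z)^2/(2*s))) :=
  integ (q := fun y => (y-z)/s) hs hF hB (by fun_prop) (fun _ => q1_bound hs)

lemma integ2 {F : ℝ → ℝ} {s z B : ℝ} (hs : 0 < s) (hF : Continuous F) (hB : ∀ y, |F y| ≤ B) :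
    Integrable (fun y => F y * (((y-z)/s)^2 - 1/s) * Real.exp (-(y-z)^2/(2*s))) :=
  integ (q := fun y => ((y-z)/s)^2 - 1/s) hs hF hB (by fun_prop) (fun _ => q2_bound hs)

lemma dexp_z (s z y : ℝ) : HasDerivAt (fun x => Real.exp (-(y-x)^2/(2*s)))
    (((y-z)/s) * Real.exp (-(y-z)^2/(2*s))) z := by
  have h1 : HasDerivAt (fun x : ℝ => y - x) (-1) z := by
    simpa using (hasDerivAt_id z).const_sub y
  have h2 : HasDerivAt (fun x : ℝ => -(y-x)^2/(2*s)) (-(2*(y-z)*(-1))/(2*s)) z := by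
    have h3 : HasDerivAt (fun x : ℝ => (y-x)^2) (2*(y-z)*(-1)) z :=
      (h1.pow 2).congr_deriv (by simp)
    exact h3.neg.div_const _
  refine h2.exp.congr_deriv ?_
  have : -(2*(y-z)*(-1))/(2*s) = (y-z)/s := by
    rw [show -(2*(y-z)*(-1)) = 2*(y-z) by ring]
    exact mul_div_mul_left _ _ two_ne_zero
  rw [this]; ring

theorem kern_z {F : ℝ → ℝ} {s B : ℝ} (hF : Continuous F) (hB : ∀ y, |F y| ≤ B) (hs : 0 < s)
    (z : ℝ) : HasDerivAt (fun x => kern F s x) (kern1 F s z) z := by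
  have key := hasDerivAt_integral_of_dominated_loc_of_deriv_le (μ := volume)
    (F := fun x y => F y * Real.exp (-(y-x)^2/(2*s)))
    (F' := fun x y => F y * ((y-x)/s) * Real.exp (-(y-x)^2/(2*s)))
    (x₀ := z) (s := Metric.ball z 1)
    (bound := fun y => B * (1/s) * ((1 + 8*s) * Real.exp (1/(8*s))) * dm s z y)
    (Metric.ball_mem_nhds z one_pos)
    (Eventually.of_forall fun x => (hF.mul (by fun_prop)).aestronglyMeasurable)
    (integ0 hs hF hB)
    ((hF.mul (by fun_prop)).mul (by fun_prop)).aestronglyMeasurable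
    (Eventually.of_forall fun y x hx => dom_int hs (by linarith)
      (by rw [← Real.dist_eq]; exact (Metric.mem_ball.1 hx).le) (hB y) (q1_bound hs))
    ((dm_int hs z).const_mul _)
    (Eventually.of_forall fun y x _ => by
      have := (dexp_z s x y).const_mul (F y)
      exact this.congr_deriv (by ring))
  exact key.2

theorem kern1_z {F : ℝ → ℝ} {s B : ℝ} (hF : Continuous F) (hB : ∀ y, |F y| ≤ B) (hs : 0 < s)
    (z : ℝ) : HasDerivAt (fun x => kern1 F s x) (kern2 F s z) z := by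
  have key := hasDerivAt_integral_of_dominated_loc_of_deriv_le (μ := volume)
    (F := fun x y => F y * ((y-x)/s) * Real.exp (-(y-x)^2/(2*s)))
    (F' := fun x y => F y * (((y-x)/s)^2 - 1/s) * Real.exp (-(y-x)^2/(2*s)))
    (x₀ := z) (s := Metric.ball z 1)
    (bound := fun y => B * (1/s^2 + 1/s) * ((1 + 8*s) * Real.exp (1/(8*s))) * dm s z y)
    (Metric.ball_mem_nhds z one_pos)
    (Eventually.of_forall fun x =>
      ((hF.mul (by fun_prop)).mul (by fun_prop)).aestronglyMeasurable)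
    (integ1 hs hF hB)
    ((hF.mul (by fun_prop)).mul (by fun_prop)).aestronglyMeasurable
    (Eventually.of_forall fun y x hx => dom_int hs (by linarith)
      (by rw [← Real.dist_eq]; exact (Metric.mem_ball.1 hx).le) (hB y) (q2_bound hs))
    ((dm_int hs z).const_mul _)
    (Eventually.of_forall fun y x _ => by
      have h1 : HasDerivAt (fun x : ℝ => F y * ((y-x)/s)) (F y * (-1/s)) x := by
        have : HasDerivAt (fun x : ℝ => y - x) (-1) x := by
          simpa using (hasDerivAt_id x).const_sub y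
        exact (this.div_const s).const_mul (F y)
      have := h1.mul (dexp_z s x y)
      exact this.congr_deriv (by ring))
  exact key.2

lemma dexp_s {s : ℝ} (hs : 0 < s) (z y : ℝ) : HasDerivAt (fun x => Real.exp (-(y-z)^2/(2*x)))
    (((y-z)^2/(2*s^2)) * Real.exp (-(y-z)^2/(2*s))) s := by
  have h1 : HasDerivAt (fun x : ℝ => 2*x) 2 s := by
    simpa using (hasDerivAt_id s).const_mul (2:ℝ)
  have h2 : HasDerivAt (fun x : ℝ => -(y-z)^2/(2*x)) ((y-z)^2/(2*s^2)) s := by
    have h3 := (h1.inv (by positivity : (2*s) ≠ 0)).const_mul (-(y-z)^2)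
    have h4 : (fun x : ℝ => -(y-z)^2/(2*x)) = fun x : ℝ => -(y-z)^2 * (2*x)⁻¹ := by
      ext x; rw [div_eq_mul_inv]
    rw [h4]
    refine h3.congr_deriv ?_
    field_simp
  refine h2.exp.congr_deriv ?_
  ring

theorem kern_s {F : ℝ → ℝ} {s B : ℝ} (hF : Continuous F) (hB : ∀ y, |F y| ≤ B) (hs : 0 < s)
    (z : ℝ) : HasDerivAt (fun x => kern F x z) (kern2 F s z / 2 + kern F s z / (2*s)) s := by
  have hnb : Ioo (s/2) (2*s) ∈ 𝓝 s := Ioo_mem_nhds (by linarith) (by linarith)
  have key := hasDerivAt_integral_of_dominated_loc_of_deriv_le (μ := volume)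
    (F := fun x y => F y * Real.exp (-(y-z)^2/(2*x)))
    (F' := fun x y => F y * ((y-z)^2/(2*x^2)) * Real.exp (-(y-z)^2/(2*x)))
    (x₀ := s) (s := Ioo (s/2) (2*s))
    (bound := fun y => B * (2/s^2) * ((1 + 8*s) * Real.exp (1/(8*s))) * dm s z y)
    hnb
    (by
      filter_upwards [hnb] with x hx
      have hx0 : 0 < x := by linarith [hx.1]
      exact (hF.mul (by fun_prop)).aestronglyMeasurable)
    (integ0 hs hF hB)
    ((hF.mul (by fun_prop)).mul (by fun_prop)).aestronglyMeasurable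
    (Eventually.of_forall fun y x hx => by
      have hx0 : 0 < x := by linarith [hx.1]
      refine dom_int hx0 hx.2.le (by simp) (hB y) ?_
      rw [abs_of_nonneg (by positivity)]
      have h1 : (y-z)^2/(2*x^2) ≤ (y-z)^2/(2*(s/2)^2) := by
        apply div_le_div_of_nonneg_left (sq_nonneg _) (by positivity)
        have := pow_le_pow_left₀ (by linarith) hx.1.le 2
        linarith
      have h2 : (y-z)^2/(2*(s/2)^2) = (2/s^2) * (y-z)^2 := by field_simp
      have h3 : 0 ≤ 2/s^2 := by positivity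
      rw [h2] at h1
      nlinarith)
    ((dm_int hs z).const_mul _)
    (Eventually.of_forall fun y x hx => by
      have hx0 : 0 < x := by linarith [hx.1]
      have := (dexp_s hx0 z y).const_mul (F y)
      exact this.congr_deriv (by ring))
  refine key.2.congr_deriv ?_
  have e : kern2 F s z / 2 + kern F s z / (2*s)
      = ∫ y, (F y * (((y-z)/s)^2 - 1/s) * Real.exp (-(y-z)^2/(2*s)) * (1/2)
        + F y * Real.exp (-(y-z)^2/(2*s)) * (1/(2*s))) := by
    rw [integral_add ((integ2 hs hF hB).mul_const _) ((integ0 hs hF hB).mul_const _),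
      integral_mul_const, integral_mul_const]
    unfold kern2 kern
    ring
  rw [e]
  congr 1
  ext y
  field_simp
  ring

theorem kern_parts {F F' : ℝ → ℝ} {s B : ℝ} (hd : ∀ y, HasDerivAt F (F' y) y)
    (hF' : Continuous F') (hB : ∀ y, |F y| ≤ B) (hB' : ∀ y, |F' y| ≤ B) (hs : 0 < s) (z : ℝ) :
    kern F' s z = kern1 F s z := by
  have hF : Continuous F := continuous_iff_continuousAt.2 fun y => (hd y).continuousAt
  have hv : ∀ y, HasDerivAt (fun y => Real.exp (-(y-z)^2/(2*s)))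
      (-((y-z)/s) * Real.exp (-(y-z)^2/(2*s))) y := by
    intro y
    have h1 : HasDerivAt (fun x : ℝ => x - z) 1 y := by
      simpa using (hasDerivAt_id y).sub_const z
    have h2 : HasDerivAt (fun x : ℝ => -(x-z)^2/(2*s)) (-(2*(y-z)*1)/(2*s)) y := by
      have h3 : HasDerivAt (fun x : ℝ => (x-z)^2) (2*(y-z)*1) y :=
        (h1.pow 2).congr_deriv (by simp)
      exact h3.neg.div_const _
    refine h2.exp.congr_deriv ?_
    have : -(2*(y-z)*1)/(2*s) = -((y-z)/s) := by
      rw [show -(2*(y-z)*1) = 2*(-(y-z)) by ring, mul_div_mul_left _ _ two_ne_zero, neg_div]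
    rw [this]; ring
  have h1 : Integrable (fun y => F y * (-((y-z)/s) * Real.exp (-(y-z)^2/(2*s)))) := by
    refine (integ1 (z := z) hs hF hB).neg.congr (Eventually.of_forall fun y => ?_)
    simp only [Pi.neg_apply]
    ring
  have h2 : Integrable (fun y => F' y * Real.exp (-(y-z)^2/(2*s))) := integ0 hs hF' hB'
  have h3 : Integrable (fun y => F y * Real.exp (-(y-z)^2/(2*s))) := integ0 hs hF hB
  have key := integral_mul_deriv_eq_deriv_mul_of_integrable
    (u := F) (v := fun y => Real.exp (-(y-z)^2/(2*s))) (u' := F')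
    (v' := fun y => -((y-z)/s) * Real.exp (-(y-z)^2/(2*s))) (fun x _ => hd x) (fun x _ => hv x)
    h1 h2 h3
  have e : kern1 F s z = - ∫ y, F y * (-((y-z)/s) * Real.exp (-(y-z)^2/(2*s))) := by
    unfold kern1
    rw [← integral_neg]
    congr 1
    ext y
    ring
  rw [e, key, neg_neg]
  rfl

theorem kern_eq_hp {F : ℝ → ℝ} {s : ℝ} (hs : 0 < s) (z : ℝ) :
    kern F s z = Real.sqrt s * hp F s z := by
  have hsq : 0 < Real.sqrt s := Real.sqrt_pos.2 hs
  have h1 : hp F s z = ∫ x, (fun y => F (z + y) * Real.exp (-y^2/(2*s))) (Real.sqrt s * x) := by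
    unfold hp
    congr 1
    ext x
    have : -(Real.sqrt s * x)^2/(2*s) = -x^2/2 := by
      rw [mul_pow, Real.sq_sqrt hs.le]
      field_simp
    simp only [this]
  have h0 := MeasureTheory.Measure.integral_comp_mul_left
    (fun y => F (z + y) * Real.exp (-y^2/(2*s))) (Real.sqrt s)
  rw [h1, h0, abs_of_pos (inv_pos.2 hsq), smul_eq_mul,
    ← mul_assoc, mul_inv_cancel₀ hsq.ne', one_mul]
  have h2 : ∫ y, (fun w => F w * Real.exp (-(w-z)^2/(2*s))) (z + y)
      = ∫ w, F w * Real.exp (-(w-z)^2/(2*s)) :=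
    integral_add_left_eq_self (fun w => F w * Real.exp (-(w-z)^2/(2*s))) z
  unfold kern
  rw [← h2]
  congr 1
  ext y
  simp

lemma gauss_int : Integrable (fun x : ℝ => Real.exp (-x^2/2)) := by
  have h : Integrable (fun x : ℝ => Real.exp (-(1/2) * x^2)) :=
    integrable_exp_neg_mul_sq (by norm_num)
  refine h.congr (Eventually.of_forall fun x => ?_)
  simp only
  congr 1
  ring

theorem hp_cont {Fv : ℝ → ℝ → ℝ} (hF : Continuous (Function.uncurry Fv)) {B : ℝ → ℝ}
    (hBc : Continuous B) (hB : ∀ v y, |Fv v y| ≤ B v) :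
    Continuous (fun p : ℝ × ℝ × ℝ => hp (Fv p.2.2) p.1 p.2.1) := by
  rw [continuous_iff_continuousAt]
  intro p₀
  unfold hp
  apply continuousAt_of_dominated (bound := fun x => (B p₀.2.2 + 1) * Real.exp (-x^2/2))
  · refine Eventually.of_forall fun p => ?_
    apply Continuous.aestronglyMeasurable
    apply Continuous.mul _ (by fun_prop)
    exact hF.comp (continuous_const.prodMk (by fun_prop))
  · have h1 : ∀ᶠ p : ℝ × ℝ × ℝ in 𝓝 p₀, B p.2.2 < B p₀.2.2 + 1 := by
      have h2 : Continuous (fun p : ℝ × ℝ × ℝ => B p.2.2) := hBc.comp (by fun_prop)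
      exact (h2.tendsto p₀).eventually (gt_mem_nhds (by linarith))
    filter_upwards [h1] with p hp
    refine Eventually.of_forall fun x => ?_
    rw [Real.norm_eq_abs, abs_mul, abs_of_pos (Real.exp_pos _)]
    exact mul_le_mul_of_nonneg_right ((hB _ _).trans hp.le) (Real.exp_pos _).le
  · exact gauss_int.const_mul _
  · refine Eventually.of_forall fun x => ?_
    apply Continuous.continuousAt
    apply Continuous.mul _ continuous_const
    exact hF.comp (Continuous.prodMk (by fun_prop)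
      ((by fun_prop : Continuous fun p : ℝ × ℝ × ℝ => p.2.1).add
        ((Real.continuous_sqrt.comp continuous_fst).mul continuous_const)))

theorem hp_zero (F : ℝ → ℝ) (z : ℝ) : hp F 0 z = F z * Real.sqrt (2 * Real.pi) := by
  unfold hp
  simp only [Real.sqrt_zero, zero_mul, add_zero]
  rw [integral_const_mul]
  congr 1
  have h := integral_gaussian (1/2)
  have e : Real.pi / (1/2) = 2 * Real.pi := by ring
  rw [e] at h
  rw [← h]
  congr 1
  ext x
  congr 1
  ring

theorem kern_lim {F : ℝ → ℝ} (hF : Continuous F) (hi : Integrable F) :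
    Tendsto (fun s => kern F s 0) atTop (𝓝 (∫ y, F y)) := by
  unfold kern
  apply tendsto_integral_filter_of_dominated_convergence (bound := fun y => ‖F y‖)
  · filter_upwards [eventually_gt_atTop 0] with s hs
    exact (hF.mul (by fun_prop)).aestronglyMeasurable
  · filter_upwards [eventually_gt_atTop 0] with s hs
    refine Eventually.of_forall fun y => ?_
    rw [norm_mul]
    apply mul_le_of_le_one_right (norm_nonneg _)
    rw [Real.norm_eq_abs, abs_of_pos (Real.exp_pos _)]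
    apply Real.exp_le_one_iff.2
    apply div_nonpos_of_nonpos_of_nonneg
    · simp only [neg_nonpos]; positivity
    · positivity
  · exact hi.norm
  · refine Eventually.of_forall fun y => ?_
    have h1 : Tendsto (fun s : ℝ => -(y-0)^2/(2*s)) atTop (𝓝 0) := by
      apply Tendsto.const_div_atTop
      exact tendsto_id.const_mul_atTop (by norm_num : (0:ℝ) < 2)
    have h2 := (Real.continuous_exp.tendsto 0).comp h1
    have h3 := h2.const_mul (F y)
    simpa using h3

end Vale.Agent.P227.SC.Flow
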